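import Mathlib
import Vale.Agent.Helper28.CutDefs
import Vale.Agent.Helper28.CutGap
import Vale.Agent.Helper28.CutFive6

namespace Vale.Agent.Results.P318.GapFiveExact

open Vale.Agent.Helper28.Cut

/-- The integrality gap of the Goemans-Linial relaxation of uniform sparsest cut on five
vertices is exactly `10 / 9`.  First part: for all capacities `c` on five vertices and every
feasible point `d` of the relaxation some cut has sparsity at most `10 / 9` times the objective
value of `d`, so `g(5) ≤ 10 / 9`.  Second part: some capacities `c` with positive relaxation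
value and some feasible `d` have every cut of sparsity at least `10 / 9` times the objective
value of `d`, so `g(5) ≥ 10 / 9`. -/
theorem result :
    (∀ c d : Fin 5 → Fin 5 → ℝ, IsCapacity c → IsGLFeasible d →
      ∃ S : Finset (Fin 5), S.Nonempty ∧ S ≠ Finset.univ ∧
        cutCap c S ≤ 10 / 9 * ((S.card : ℝ) * ((5 : ℝ) - S.card) * glObj c d)) ∧
    (∃ c : Fin 5 → Fin 5 → ℝ, IsCapacity c ∧
      (∃ ε : ℝ, 0 < ε ∧ ∀ d : Fin 5 → Fin 5 → ℝ, IsGLFeasible d → ε ≤ glObj c d) ∧
      ∃ d : Fin 5 → Fin 5 → ℝ, IsGLFeasible d ∧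
        ∀ S : Finset (Fin 5), S.Nonempty → S ≠ Finset.univ →
          10 / 9 * ((S.card : ℝ) * ((5 : ℝ) - S.card) * glObj c d) ≤ cutCap c S) := by
  refine ⟨fun c d hc hd => five_upper c d hc hd, ?_⟩
  obtain ⟨c, hc, hε, d, hd, h⟩ := gap_from_five 5 (le_refl 5)
  refine ⟨c, hc, hε, d, hd, fun S hne hun => ?_⟩
  have := h S hne hun
  norm_num at this ⊢
  linarith

end Vale.Agent.Results.P318.GapFiveExact
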