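import Mathlib
import Vale.Agent.Helper28.CutFiveValue

/-!
The integrality gap of the Goemans-Linial relaxation of uniform sparsest cut on five vertices,
stated directly for the ratio `Φ(c) / GL(c)` and with Mathlib notions only.
-/

namespace Vale.Agent.Results.P318.GapFiveValue

open Vale.Agent.Helper28.Cut

/-- `g(5) = 10 / 9`, attained.  `IsCap c`: `c` is symmetric, nonnegative, zero on the diagonal.
`cut c S`: total capacity between `S` and its complement.  `Feas d`: `d i j` is the squared
Euclidean distance of vectors `x i`, `x j` in `ℝ^5`, all triangle inequalities hold, and the sum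
of `d i j` over pairs `i < j` is one.  `obj c d`: the sum of `c i j * d i j` over pairs `i < j`.
`Phi c`: the least cut ratio over nonempty proper vertex sets.  `GLval c`: the infimum of the
objective over feasible points.  Among the ratios `Phi c / GLval c`, over capacities `c` with
`GLval c > 0`, the number `10 / 9` is the greatest. -/
theorem result :
    let IsCap : (Fin 5 → Fin 5 → ℝ) → Prop := fun c =>
      (∀ i j, c i j = c j i) ∧ (∀ i j, 0 ≤ c i j) ∧ (∀ i, c i i = 0)
    let cut : (Fin 5 → Fin 5 → ℝ) → Finset (Fin 5) → ℝ := fun c S =>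
      ∑ i ∈ S, ∑ j ∈ Sᶜ, c i j
    let Feas : (Fin 5 → Fin 5 → ℝ) → Prop := fun d =>
      (∃ x : Fin 5 → Fin 5 → ℝ, ∀ i j, d i j = ∑ k, (x i k - x j k) ^ 2) ∧
      (∀ i j k, d i k ≤ d i j + d j k) ∧
      (∑ i, ∑ j, if i < j then d i j else 0) = 1
    let obj : (Fin 5 → Fin 5 → ℝ) → (Fin 5 → Fin 5 → ℝ) → ℝ := fun c d =>
      ∑ i, ∑ j, if i < j then c i j * d i j else 0
    let Phi : (Fin 5 → Fin 5 → ℝ) → ℝ := fun c =>
      sInf {r | ∃ S : Finset (Fin 5), S.Nonempty ∧ S ≠ Finset.univ ∧
        r = cut c S / ((S.card : ℝ) * ((5 : ℝ) - S.card))}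
    let GLval : (Fin 5 → Fin 5 → ℝ) → ℝ := fun c =>
      sInf {r | ∃ d : Fin 5 → Fin 5 → ℝ, Feas d ∧ r = obj c d}
    IsGreatest {r : ℝ | ∃ c : Fin 5 → Fin 5 → ℝ, IsCap c ∧ 0 < GLval c ∧ r = Phi c / GLval c}
      (10 / 9) := by
  intro IsCap cut Feas obj Phi GLval
  exact five_value

end Vale.Agent.Results.P318.GapFiveValue
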