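import Mathlib
import Vale.Agent.Helper28.CutDefs
import Vale.Agent.Helper28.CutGap

namespace Vale.Agent.Results.P318.GapFromFive

open Vale.Agent.Helper28.Cut

/-- For every `n ≥ 5` there are capacities `c` on `n` vertices with positive relaxation value
and a feasible point `d` of the Goemans-Linial relaxation such that every cut has sparsity at
least `(18 n - 50) / (18 n - 54)` times the objective value of `d`; hence the integrality gap
for uniform demands satisfies `g(n) ≥ (18 n - 50) / (18 n - 54) > 1`. -/
theorem result (n : ℕ) (hn : 5 ≤ n) :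
    ∃ c : Fin n → Fin n → ℝ, IsCapacity c ∧
      (∃ ε : ℝ, 0 < ε ∧ ∀ d : Fin n → Fin n → ℝ, IsGLFeasible d → ε ≤ glObj c d) ∧
      ∃ d : Fin n → Fin n → ℝ, IsGLFeasible d ∧
        ∀ S : Finset (Fin n), S.Nonempty → S ≠ Finset.univ →
          (18 * (n : ℝ) - 50) / (18 * (n : ℝ) - 54)
            * ((S.card : ℝ) * ((n : ℝ) - S.card) * glObj c d) ≤ cutCap c S :=
  gap_from_five n hn

end Vale.Agent.Results.P318.GapFromFive
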