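import Mathlib
import Vale.Agent.Helper28.CutDefs
import Vale.Agent.Helper28.CutSmall

namespace Vale.Agent.Results.P318.SmallExact

open Vale.Agent.Helper28.Cut

/-- For `2 ≤ n ≤ 4` vertices the Goemans-Linial relaxation of uniform sparsest cut has
integrality gap one: for all capacities `c` and every feasible point `d` of the relaxation
there is a cut whose sparsity is at most the objective value of `d`. -/
theorem result (n : ℕ) (h2 : 2 ≤ n) (h4 : n ≤ 4) (c d : Fin n → Fin n → ℝ)
    (hc : IsCapacity c) (hd : IsGLFeasible d) :
    ∃ S : Finset (Fin n), S.Nonempty ∧ S ≠ Finset.univ ∧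
      cutCap c S ≤ (S.card : ℝ) * ((n : ℝ) - S.card) * glObj c d :=
  small_exact n h2 h4 c d hc hd

end Vale.Agent.Results.P318.SmallExact
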